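import Vale.Agent.P027.H539.Cnt2

/-! The AND-lemma. -/

set_option linter.all false

namespace Vale.Agent.P027.Q

open Vale.Agent.P027

lemma od_full {R : Finset ℕ} {n Q : ℕ} (hQ : Inert Q) (hn : n ≠ 0) (hdv : Dv Q (n : ℤ))
    (hR : ∀ p, p.Prime → p ∣ n → p ∈ R) (hB : BB R n Q = R) : Ord Q n := by
  have ho := ord_od hQ.1 hn hdv
  have hod := od_dvd hQ.1 hn hdv
  have ho0 : od Q ≠ 0 := ho.1.ne'
  have h1 : n ∣ od Q := by
    rw [← Nat.factorization_prime_le_iff_dvd hn ho0]
    intro p hp
    rw [Nat.factorization_def _ hp, Nat.factorization_def _ hp]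
    by_cases hpn : p ∣ n
    · have h2 : p ∈ BB R n Q := by rw [hB]; exact hR p hp hpn
      unfold BB at h2
      rw [Finset.mem_filter] at h2
      exact h2.2.ge
    · rw [padicValNat.eq_zero_of_not_dvd hpn]
      exact Nat.zero_le _
  have h2 : od Q = n := Nat.dvd_antisymm hod h1
  rw [h2] at ho
  exact ho

lemma mem_BB {R : Finset ℕ} {n Q r : ℕ} :
    r ∈ BB R n Q ↔ r ∈ R ∧ padicValNat r (od Q) = padicValNat r n := by
  unfold BB
  rw [Finset.mem_filter]

lemma mem_XX {R : Finset ℕ} {n Q : ℕ} : Q ∈ XX R n ↔ Q ∈ VD n ∧ BB R n Q = R := by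
  unfold XX
  rw [Finset.mem_filter]

open Classical in
lemma mem_YY {R : Finset ℕ} {n Q : ℕ} :
    Q ∈ YY R n ↔ Q ∈ R ∧ Dv Q (n : ℤ) ∧ BB R n Q = R.erase Q := by
  unfold YY
  rw [Finset.mem_filter]

lemma inert_ge {q : ℕ} (h : Inert q) : 3 ≤ q := by
  have h1 := h.1.two_le
  rcases h.2 with h2 | h2 <;> omega

lemma odd_inert {q : ℕ} (h : Inert q) : Odd q := h.1.odd_of_ne_two h.ne_two

section
variable {q q' i j : ℕ} (hq : Inert q) (hq' : Inert q') (hne : q ≠ q') (hi : 1 ≤ i) (hj : 1 ≤ j)
include hq hq' hne hi hj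

lemma n0_eq {S : Finset ℕ} (h1 : q ∉ S) (h2 : q' ∉ S) :
    q ^ i * q' ^ j * ∏ r ∈ S, r =
      (q ^ (i - 1) * q' ^ (j - 1)) * ∏ r ∈ insert q (insert q' S), r := by
  classical
  have h3 : q ∉ insert q' S := by
    rw [Finset.mem_insert]
    rintro (h | h)
    · exact hne h
    · exact h1 h
  rw [Finset.prod_insert h3, Finset.prod_insert h2]
  obtain ⟨i', rfl⟩ : ∃ i', i = i' + 1 := ⟨i - 1, by omega⟩
  obtain ⟨j', rfl⟩ : ∃ j', j = j' + 1 := ⟨j - 1, by omega⟩
  rw [Nat.add_sub_cancel, Nat.add_sub_cancel]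
  ring

lemma val_n0 {S : Finset ℕ} (hS : ∀ r ∈ S, Inert r) {p : ℕ} (hp : p.Prime) :
    padicValNat p (q ^ i * q' ^ j * ∏ r ∈ S, r) =
      (if p = q then i else 0) + (if p = q' then j else 0) + (if p ∈ S then 1 else 0) := by
  have := Fact.mk hp
  have h0 : q ^ i * q' ^ j ≠ 0 := mul_ne_zero (pow_ne_zero _ hq.1.ne_zero)
    (pow_ne_zero _ hq'.1.ne_zero)
  rw [val_base h0 hS hp, padicValNat.mul (pow_ne_zero _ hq.1.ne_zero)
    (pow_ne_zero _ hq'.1.ne_zero), padicValNat.pow, padicValNat.pow]
  have e : ∀ {a : ℕ}, a.Prime → padicValNat p a = if p = a then 1 else 0 := by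
    intro a ha
    by_cases h : p = a
    · subst h; rw [padicValNat_self, if_pos rfl]
    · rw [if_neg h]
      apply padicValNat.eq_zero_of_not_dvd
      intro h2
      exact h ((Nat.prime_dvd_prime_iff_eq hp ha).1 h2)
  rw [e hq.1, e hq'.1]
  split_ifs <;> simp

omit hi hj in
lemma dvd_n0 {S : Finset ℕ} (hS : ∀ r ∈ S, Inert r) {p : ℕ} (hp : p.Prime)
    (h : p ∣ q ^ i * q' ^ j * ∏ r ∈ S, r) : p ∈ insert q (insert q' S) := by
  rw [Finset.mem_insert, Finset.mem_insert]
  rcases (Nat.Prime.dvd_mul hp).1 h with h | h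
  · rcases (Nat.Prime.dvd_mul hp).1 h with h | h
    · left; exact (Nat.prime_dvd_prime_iff_eq hp hq.1).1 (hp.dvd_of_dvd_pow h)
    · right; left; exact (Nat.prime_dvd_prime_iff_eq hp hq'.1).1 (hp.dvd_of_dvd_pow h)
  · right; right
    obtain ⟨a, ha, h1⟩ := (hp.prime.dvd_finset_prod_iff _).1 h
    rw [(Nat.prime_dvd_prime_iff_eq hp (hS a ha).1).1 h1]
    exact ha

end

/-- primes of exact order `q^i q'^j` -/
lemma exists_n0 (hL : Law) {q q' i j : ℕ} (hq : Inert q) (hq' : Inert q') (hne : q ≠ q')
    (hi : 1 ≤ i) (hj : 1 ≤ j) (ho : ¬ q ∣ od q) (ho' : ¬ q' ∣ od q') (hp : od q ≠ q' ^ j)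
    (hp' : od q' ≠ q ^ i) :
    ∃ κ, κ ∈ VD (q ^ i * q' ^ j) ∧ Ord κ (q ^ i * q' ^ j) := by
  classical
  set N := q ^ (i - 1) * q' ^ (j - 1) with hN
  have hNodd : Odd N := (odd_inert hq).pow.mul (odd_inert hq').pow
  have hR : ∀ r ∈ insert q (insert q' (∅ : Finset ℕ)), Inert r := by
    intro r hr
    rw [Finset.mem_insert, Finset.mem_insert] at hr
    rcases hr with rfl | rfl | hr
    · exact hq
    · exact hq'
    · simp at hr
  have e0 := n0_eq (i := i) (j := j) hq hq' hne hi hj (S := ∅) (by simp) (by simp)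
  rw [Finset.prod_empty, mul_one, ← hN] at e0
  have hcard : (insert q (insert q' (∅ : Finset ℕ))).card = 2 := by
    rw [Finset.card_insert_of_notMem (by simpa using hne), Finset.card_insert_of_notMem (by simp),
      Finset.card_empty]
  have h1 := counting' hL hNodd hR (by rw [hcard])
  rw [← e0, hcard, if_pos rfl] at h1
  set n := q ^ i * q' ^ j with hn
  have hn0 : n ≠ 0 := mul_ne_zero (pow_ne_zero _ hq.1.ne_zero) (pow_ne_zero _ hq'.1.ne_zero)
  have hv : ∀ p : ℕ, p.Prime → padicValNat p n = (if p = q then i else 0) +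
      (if p = q' then j else 0) := by
    intro p hp
    have := val_n0 hq hq' hne hi hj (S := ∅) (by simp) hp
    simpa using this
  have hdn : ∀ p : ℕ, p.Prime → p ∣ n → p ∈ insert q (insert q' (∅ : Finset ℕ)) := by
    intro p hp h
    have := dvd_n0 (i := i) (j := j) hq hq' hne (S := ∅) (by simp) hp
    apply this
    simpa using h
  have hY : YY (insert q (insert q' ∅)) n = ∅ := by
    rw [Finset.eq_empty_iff_forall_notMem]
    intro Q hQ
    obtain ⟨h2, h3, h4⟩ := mem_YY.1 hQ
    rw [Finset.mem_insert, Finset.mem_insert] at h2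
    rcases h2 with rfl | rfl | h2
    · have h5 : q' ∈ BB (insert Q (insert q' ∅)) n Q := by
        rw [h4]
        simp [Ne.symm hne]
      have h6 := (mem_BB.1 h5).2
      rw [hv q' hq'.1, if_neg (Ne.symm hne), if_pos rfl, zero_add] at h6
      have hod := od_dvd hq.1 hn0 h3
      have hpos := od_pos hq.1 hn0 h3
      apply hp
      apply Nat.eq_of_factorization_eq hpos.ne' (pow_ne_zero _ hq'.1.ne_zero)
      intro p
      by_cases hpp : p.Prime
      · have := Fact.mk hpp
        rw [Nat.factorization_def _ hpp, Nat.factorization_def _ hpp,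
          padicValNat.pow]
        by_cases hpq : p = q'
        · subst hpq; rw [h6, padicValNat_self, mul_one]
        · have e1 : padicValNat p q' = 0 := padicValNat.eq_zero_of_not_dvd (fun h =>
            hpq ((Nat.prime_dvd_prime_iff_eq hpp hq'.1).1 h))
          rw [e1, mul_zero]
          apply padicValNat.eq_zero_of_not_dvd
          intro h7
          have h8 := hdn p hpp (h7.trans hod)
          rw [Finset.mem_insert, Finset.mem_insert] at h8
          rcases h8 with rfl | rfl | h8
          · exact ho h7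
          · exact hpq rfl
          · simp at h8
      · rw [Nat.factorization_eq_zero_of_not_prime _ hpp,
          Nat.factorization_eq_zero_of_not_prime _ hpp]
    · have h5 : q ∈ BB (insert q (insert Q ∅)) n Q := by
        rw [h4]
        simp [hne]
      have h6 := (mem_BB.1 h5).2
      rw [hv q hq.1, if_neg hne, if_pos rfl, add_zero] at h6
      have hod := od_dvd hq'.1 hn0 h3
      have hpos := od_pos hq'.1 hn0 h3
      apply hp'
      apply Nat.eq_of_factorization_eq hpos.ne' (pow_ne_zero _ hq.1.ne_zero)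
      intro p
      by_cases hpp : p.Prime
      · have := Fact.mk hpp
        rw [Nat.factorization_def _ hpp, Nat.factorization_def _ hpp,
          padicValNat.pow]
        by_cases hpq : p = q
        · subst hpq; rw [h6, padicValNat_self, mul_one]
        · have e1 : padicValNat p q = 0 := padicValNat.eq_zero_of_not_dvd (fun h =>
            hpq ((Nat.prime_dvd_prime_iff_eq hpp hq.1).1 h))
          rw [e1, mul_zero]
          apply padicValNat.eq_zero_of_not_dvd
          intro h7
          have h8 := hdn p hpp (h7.trans hod)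
          rw [Finset.mem_insert, Finset.mem_insert] at h8
          rcases h8 with rfl | rfl | h8
          · exact hpq rfl
          · exact ho' h7
          · simp at h8
      · rw [Nat.factorization_eq_zero_of_not_prime _ hpp,
          Nat.factorization_eq_zero_of_not_prime _ hpp]
    · simp at h2
  rw [hY, Finset.card_empty, add_zero] at h1
  obtain ⟨κ, hκ⟩ : (XX (insert q (insert q' ∅)) n).Nonempty := by
    rw [Finset.nonempty_iff_ne_empty]
    intro h
    rw [h, Finset.card_empty] at h1
    norm_num at h1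
  obtain ⟨h2, h3⟩ := mem_XX.1 hκ
  obtain ⟨h4, h5, h6⟩ := (mem_VD hn0).1 h2
  exact ⟨κ, h2, od_full h4 hn0 ((dv_xx hn0).2 h5) hdn h3⟩

/-- the descent -/
lemma and_step (hL : Law) {q q' i j : ℕ} (hq : Inert q) (hq' : Inert q') (hne : q ≠ q')
    (hi : 2 ≤ i) (hj : 2 ≤ j) (ho : ¬ q ∣ od q) (ho' : ¬ q' ∣ od q')
    {ι : Type*} (m : ι → ℕ) (top : ι) (htop : m top ≠ 0) (hd : q ^ i * q' ^ j ∣ m top) :
    ∀ (d : ℕ) (S : Finset ℕ) (κ : ℕ), m top < q ^ i * q' ^ j * ∏ r ∈ S, r + d →
      (∀ r ∈ S, Inert r ∧ r ≠ q ∧ r ≠ q') →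
      (∀ r ∈ S, Ord r (od r) ∧ od r ∣ q ^ i * q' ^ j * ∏ r ∈ S, r) →
      Inert κ → κ ≠ q → κ ≠ q' → κ ∉ S → Ord κ (q ^ i * q' ^ j * ∏ r ∈ S, r) →
      Odd (wt κ (q ^ i * q' ^ j * ∏ r ∈ S, r)) →
      (∀ U, q ^ i * q' ^ j ∣ m U → q ^ i * q' ^ j * ∏ r ∈ S, r ∣ m U) →
      ∃ Q U o, Inert Q ∧ Ord Q o ∧ ¬ Q ∣ o ∧ q ^ i * q' ^ j ∣ o ∧ ¬ Q ∣ m U ∧ Dv Q (m U : ℤ) ∧
        Odd (wt Q (m U)) ∧ ∀ k, (Dv Q (m k : ℤ) ↔ q ^ i * q' ^ j ∣ m k) := by
  classical
  have hn00 : q ^ i * q' ^ j ≠ 0 := mul_ne_zero (pow_ne_zero _ hq.1.ne_zero)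
    (pow_ne_zero _ hq'.1.ne_zero)
  intro d
  induction d with
  | zero =>
    intro S κ h1 h2 h3 h4 h5 h6 h7 h8 h9 h10
    exfalso
    have := Nat.le_of_dvd (Nat.pos_of_ne_zero htop) (h10 top hd)
    omega
  | succ d ih =>
    intro S κ h1 h2 h3 h4 h5 h6 h7 h8 h9 h10
    have hSin : ∀ r ∈ S, Inert r := fun r hr => (h2 r hr).1
    have hqS : q ∉ S := fun h => (h2 q h).2.1 rfl
    have hq'S : q' ∉ S := fun h => (h2 q' h).2.2 rfl
    set N' := q ^ i * q' ^ j * ∏ r ∈ S, r with hN'
    have hN'0 : N' ≠ 0 := mul_ne_zero hn00 (prod_odd hSin).pos.ne'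
    have hκN' : ¬ κ ∣ N' := by
      intro h
      have := dvd_n0 hq hq' hne hSin h4.1 h
      rw [Finset.mem_insert, Finset.mem_insert] at this
      rcases this with h | h | h
      · exact h5 h
      · exact h6 h
      · exact h7 h
    have hn0N' : q ^ i * q' ^ j ∣ N' := dvd_mul_right _ _
    by_cases hex : ∃ U, q ^ i * q' ^ j ∣ m U ∧ ¬ κ ∣ m U
    · obtain ⟨U, hU1, hU2⟩ := hex
      have hmU : m U ≠ 0 := by
        intro h
        rw [h] at hU2
        exact hU2 (dvd_zero _)
      obtain ⟨t, ht⟩ := h10 U hU1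
      have ht0 : t ≠ 0 := by
        rintro rfl
        rw [mul_zero] at ht
        exact hmU ht
      have hκt : ¬ κ ∣ t := fun h => hU2 (by rw [ht]; exact h.mul_left _)
      have hw := wt_mul_dv h4.1 hN'0 ht0 ((h8.2 N').2 dvd_rfl)
      rw [padicValNat.eq_zero_of_not_dvd hκt, add_zero, ← ht] at hw
      refine ⟨κ, U, N', h4, h8, hκN', hn0N', hU2, ?_, ?_, ?_⟩
      · exact dv_of_od h8 (h10 U hU1)
      · rw [hw]; exact h9
      · intro k
        rw [h8.2 (m k : ℤ)]
        constructor
        · intro h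
          have h' : N' ∣ m k := by exact_mod_cast h
          exact hn0N'.trans h'
        · intro h
          exact_mod_cast h10 k h
    · push Not at hex
      -- next prime
      set S' := insert κ S with hS'
      have hS'in : ∀ r ∈ S', Inert r := by
        intro r hr
        rcases Finset.mem_insert.1 hr with rfl | hr
        · exact h4
        · exact hSin r hr
      have hqS' : q ∉ S' := by
        intro h
        rcases Finset.mem_insert.1 h with h | h
        · exact h5 h.symm
        · exact hqS h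
      have hq'S' : q' ∉ S' := by
        intro h
        rcases Finset.mem_insert.1 h with h | h
        · exact h6 h.symm
        · exact hq'S h
      have hprod : ∏ r ∈ S', r = κ * ∏ r ∈ S, r := Finset.prod_insert h7
      set n := q ^ i * q' ^ j * ∏ r ∈ S', r with hn
      have hnN' : n = N' * κ := by rw [hn, hprod, hN']; ring
      have hn0 : n ≠ 0 := by rw [hnN']; exact mul_ne_zero hN'0 h4.1.ne_zero
      set R := insert q (insert q' S') with hRdef
      have hR : ∀ r ∈ R, Inert r := by
        intro r hr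
        rw [hRdef, Finset.mem_insert, Finset.mem_insert] at hr
        rcases hr with rfl | rfl | hr
        · exact hq
        · exact hq'
        · exact hS'in r hr
      have hdn : ∀ p : ℕ, p.Prime → p ∣ n → p ∈ R := fun p hp h => dvd_n0 hq hq' hne hS'in hp h
      have hqR : q ∉ insert q' S' := by
        rw [Finset.mem_insert]
        rintro (h | h)
        · exact hne h
        · exact hqS' h
      have hcard : 3 ≤ R.card := by
        rw [hRdef, Finset.card_insert_of_notMem hqR, Finset.card_insert_of_notMem hq'S', hS',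
          Finset.card_insert_of_notMem h7]
        omega
      have hNodd : Odd (q ^ (i - 1) * q' ^ (j - 1)) := (odd_inert hq).pow.mul (odd_inert hq').pow
      have e0 := n0_eq (i := i) (j := j) hq hq' hne (by omega) (by omega) (S := S') hqS' hq'S'
      have hc := counting' hL hNodd hR (by omega)
      rw [← hRdef] at e0
      rw [← e0, if_neg (by omega)] at hc
      have hv : ∀ p : ℕ, p.Prime → padicValNat p n = (if p = q then i else 0) +
          (if p = q' then j else 0) + (if p ∈ S' then 1 else 0) := fun p hp =>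
        val_n0 hq hq' hne (by omega) (by omega) hS'in hp
      have hκR : κ ∈ R := by
        rw [hRdef, Finset.mem_insert, Finset.mem_insert]
        right; right; exact Finset.mem_insert_self _ _
      have hodκ : od κ = N' := od_eq h8
      have hvκ : padicValNat κ n = 1 := by
        rw [hv κ h4.1, if_neg h5, if_neg h6, if_pos (Finset.mem_insert_self _ _)]
      have hκbig : q ^ 2 * q' ^ 2 ≤ 2 * κ + 4 := by
        have h11 := ord_le h4.1 h8
        have h12 : q ^ i * q' ^ j ≤ N' := Nat.le_of_dvd (Nat.pos_of_ne_zero hN'0) hn0N'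
        have h13 : q ^ 2 * q' ^ 2 ≤ q ^ i * q' ^ j := Nat.mul_le_mul
          (Nat.pow_le_pow_right hq.1.pos hi) (Nat.pow_le_pow_right hq'.1.pos hj)
        omega
      have hq3 := inert_ge hq
      have hq'3 := inert_ge hq'
      -- no prime among the two given ones
      have hno : ∀ a b : ℕ, Inert a → Inert b → a ≠ b → κ ≠ b → a ^ 2 * b ^ 2 ≤ 2 * κ + 4 →
          ∀ e, 2 ≤ e → padicValNat b n = e → b ∈ R → κ ≠ a →
          ¬ (Dv a (n : ℤ) ∧ BB R n a = R.erase a) := by
        rintro a b ha hb hab hκb hbig e he hve hbR hκa ⟨h11, h12⟩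
        have f := Fact.mk ha.1
        have f' := Fact.mk hb.1
        have f'' := Fact.mk h4.1
        have horda := ord_od ha.1 hn0 h11
        have hle := ord_le ha.1 horda
        have h13 : b ∈ BB R n a := by rw [h12]; exact Finset.mem_erase.2 ⟨hab.symm, hbR⟩
        have h14 : κ ∈ BB R n a := by rw [h12]; exact Finset.mem_erase.2 ⟨hκa, hκR⟩
        have h15 := (mem_BB.1 h13).2
        have h16 := (mem_BB.1 h14).2
        rw [hve] at h15
        rw [hvκ] at h16
        have h17 : b ^ 2 ∣ od a := (padicValNat_dvd_iff_le horda.1.ne').2 (by rw [h15]; exact he)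
        have h18 : κ ∣ od a := dvd_of_one_le_padicValNat (by rw [h16])
        have h19 : b ^ 2 * κ ∣ od a := by
          refine Nat.Coprime.mul_dvd_of_dvd_of_dvd ?_ h17 h18
          exact Nat.Coprime.pow_left _ ((Nat.coprime_primes hb.1 h4.1).2 (Ne.symm hκb))
        have h20 := Nat.le_of_dvd horda.1 h19
        have ha3 := inert_ge ha
        have hb3 := inert_ge hb
        have hb9 : 9 ≤ b ^ 2 := by nlinarith
        have h21 : 9 * κ ≤ b ^ 2 * κ := Nat.mul_le_mul_right _ hb9
        have h22 : a ^ 2 * 9 ≤ a ^ 2 * b ^ 2 := Nat.mul_le_mul_left _ hb9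
        nlinarith
      have hY : YY R n = {κ} := by
        ext Q
        rw [mem_YY, Finset.mem_singleton]
        constructor
        · rintro ⟨h11, h12, h13⟩
          by_contra hQκ
          rw [hRdef, Finset.mem_insert, Finset.mem_insert] at h11
          have hvq : padicValNat q n = i := by
            rw [hv q hq.1, if_pos rfl, if_neg hne, if_neg hqS']; rfl
          have hvq' : padicValNat q' n = j := by
            rw [hv q' hq'.1, if_neg (Ne.symm hne), if_pos rfl, if_neg hq'S']; simp
          rcases h11 with rfl | rfl | h11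
          · exact hno Q q' hq hq' hne h6 hκbig j hj hvq' (by
              rw [hRdef, Finset.mem_insert, Finset.mem_insert]; right; left; rfl) h5 ⟨h12, h13⟩
          · exact hno Q q hq' hq (Ne.symm hne) h5 (by rw [mul_comm]; exact hκbig) i hi hvq (by
              rw [hRdef, Finset.mem_insert]; left; rfl) h6 ⟨h12, h13⟩
          · have h14 : Q ∈ S := (Finset.mem_insert.1 h11).resolve_left hQκ
            have h15 : κ ∈ BB R n Q := by
              rw [h13]; exact Finset.mem_erase.2 ⟨fun h => hQκ h.symm, hκR⟩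
            have h16 := (mem_BB.1 h15).2
            rw [hvκ] at h16
            have h17 : κ ∣ od Q := dvd_of_one_le_padicValNat (by rw [h16])
            exact hκN' (h17.trans (h3 Q h14).2)
        · rintro rfl
          refine ⟨hκR, dv_of_od h8 ⟨Q, hnN'⟩, ?_⟩
          ext r
          rw [mem_BB, Finset.mem_erase, hodκ]
          constructor
          · rintro ⟨h11, h12⟩
            refine ⟨?_, h11⟩
            rintro rfl
            rw [hvκ, padicValNat.eq_zero_of_not_dvd hκN'] at h12
            norm_num at h12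
          · rintro ⟨h11, h12⟩
            refine ⟨h12, ?_⟩
            have hr := (hR r h12).1
            have := Fact.mk hr
            rw [hnN', padicValNat.mul hN'0 h4.1.ne_zero]
            have : padicValNat r Q = 0 := padicValNat.eq_zero_of_not_dvd (fun h =>
              h11 ((Nat.prime_dvd_prime_iff_eq hr h4.1).1 h))
            rw [this, add_zero]
      rw [hY, Finset.card_singleton] at hc
      obtain ⟨κ', hκ'⟩ : (XX R n).Nonempty := by
        rw [Finset.nonempty_iff_ne_empty]
        intro h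
        rw [h, Finset.card_empty] at hc
        norm_num at hc
      obtain ⟨h11, h12⟩ := mem_XX.1 hκ'
      obtain ⟨h13, h14, h15⟩ := (mem_VD hn0).1 h11
      have h16 := od_full h13 hn0 ((dv_xx hn0).2 h14) hdn h12
      have hod' : od κ' = n := od_eq h16
      refine ih S' κ' ?_ ?_ ?_ h13 ?_ ?_ ?_ h16 h15 ?_
      · rw [← hn, hnN']
        have hκ3 := inert_ge h4
        have hpos := Nat.pos_of_ne_zero hN'0
        nlinarith
      · intro r hr
        refine ⟨hS'in r hr, ?_, ?_⟩
        · rintro rfl; exact hqS' hr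
        · rintro rfl; exact hq'S' hr
      · intro r hr
        rw [← hn, hnN']
        rcases Finset.mem_insert.1 hr with rfl | hr
        · rw [hodκ]
          exact ⟨h8, dvd_mul_right _ _⟩
        · exact ⟨(h3 r hr).1, (h3 r hr).2.mul_right _⟩
      · rintro rfl
        apply ho
        rw [hod']
        have : κ' ∣ κ' ^ i := dvd_pow_self _ (by omega)
        exact (this.mul_right _).mul_right _
      · rintro rfl
        apply ho'
        rw [hod']
        have : κ' ∣ κ' ^ j := dvd_pow_self _ (by omega)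
        exact (this.mul_left _).mul_right _
      · intro h
        have h17 : κ' = κ ∨ κ' ∈ S := Finset.mem_insert.1 h
        rcases h17 with h17 | h17
        · rw [h17, hodκ] at hod'
          apply hκN'
          rw [hod', hnN']
          exact dvd_mul_left _ _
        · have h18 := (h3 κ' h17).2
          rw [hod'] at h18
          apply hκN'
          exact (Dvd.intro_left N' hnN'.symm).trans h18
      · intro U hU
        rw [← hn, hnN']
        refine Nat.Coprime.mul_dvd_of_dvd_of_dvd ?_ (h10 U hU) (hex U hU)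
        exact ((Nat.Prime.coprime_iff_not_dvd h4.1).2 hκN').symm

/-- the AND-lemma -/
theorem and_core (hL : Law) {q q' i j : ℕ} (hq : Inert q) (hq' : Inert q') (hne : q ≠ q')
    (hi : 2 ≤ i) (hj : 2 ≤ j) (ho : ¬ q ∣ od q) (ho' : ¬ q' ∣ od q') (hp : od q ≠ q' ^ j)
    (hp' : od q' ≠ q ^ i)
    {ι : Type*} (m : ι → ℕ) (top : ι) (htop : m top ≠ 0) (hd : q ^ i * q' ^ j ∣ m top) :
    ∃ Q U o, Inert Q ∧ Ord Q o ∧ ¬ Q ∣ o ∧ q ^ i * q' ^ j ∣ o ∧ ¬ Q ∣ m U ∧ Dv Q (m U : ℤ) ∧
      Odd (wt Q (m U)) ∧ ∀ k, (Dv Q (m k : ℤ) ↔ q ^ i * q' ^ j ∣ m k) := by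
  obtain ⟨κ, h1, h2⟩ := exists_n0 hL hq hq' hne (by omega) (by omega) ho ho' hp hp'
  have hn0 : q ^ i * q' ^ j ≠ 0 := mul_ne_zero (pow_ne_zero _ hq.1.ne_zero)
    (pow_ne_zero _ hq'.1.ne_zero)
  obtain ⟨h4, h5, h6⟩ := (mem_VD hn0).1 h1
  refine and_step hL hq hq' hne hi hj ho ho' m top htop hd (m top + 1) ∅ κ ?_ ?_ ?_ h4 ?_ ?_ ?_ ?_
    ?_ ?_
  · rw [Finset.prod_empty, mul_one]
    omega
  · simp
  · simp
  · rintro rfl
    apply ho
    rw [od_eq h2]
    exact (dvd_pow_self _ (by omega)).mul_right _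
  · rintro rfl
    apply ho'
    rw [od_eq h2]
    exact (dvd_pow_self _ (by omega)).mul_left _
  · simp
  · rw [Finset.prod_empty, mul_one]; exact h2
  · rw [Finset.prod_empty, mul_one]; exact h6
  · intro U hU
    rw [Finset.prod_empty, mul_one]; exact hU

end Vale.Agent.P027.Q
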