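import Vale.Agent.P027.Q.Grow

/-! Counting lemma for the visible primes. -/

set_option linter.all false

namespace Vale.Agent.P027.Q

open Vale.Agent.P027

open Classical in
/-- the order of the generator modulo `q` -/
noncomputable def od (q : ℕ) : ℕ := if h : ∃ m, Ord q m then h.choose else 0

lemma od_eq {q m : ℕ} (h : Ord q m) : od q = m := by
  unfold od
  rw [dif_pos ⟨m, h⟩]
  exact (Exists.choose_spec (⟨m, h⟩ : ∃ m, Ord q m)).unique h

lemma ord_od {q n : ℕ} (hq : q.Prime) (hn : n ≠ 0) (h : Dv q n) : Ord q (od q) := by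
  obtain ⟨m, hm⟩ := exists_Ord hq (k := (n : ℤ)) (by exact_mod_cast hn) h
  rw [od_eq hm]
  exact hm

lemma od_dvd {q n : ℕ} (hq : q.Prime) (hn : n ≠ 0) (h : Dv q n) : od q ∣ n := by
  have := ((ord_od hq hn h).2 n).1 h
  exact_mod_cast this

lemma od_pos {q n : ℕ} (hq : q.Prime) (hn : n ≠ 0) (h : Dv q n) : 0 < od q :=
  (ord_od hq hn h).1

lemma dv_of_od {q n m : ℕ} (h : Ord q m) (hd : m ∣ n) : Dv q n :=
  (h.2 n).2 (by exact_mod_cast hd)

lemma wt_mul_dv {q m k : ℕ} (hq : q.Prime) (hm : m ≠ 0) (hk : k ≠ 0) (h : Dv q m) :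
    wt q (m * k) = wt q m + padicValNat q k := by
  have h1 := v_mul_neg hq hm hk ((dv_xx hm).1 h)
  have h2 := (dv_xx hm).1 h
  unfold wt
  rw [h1]
  omega

/-- the sign function -/
def phn (n : ℕ) : ℕ := if n % 16 = 5 ∨ n % 16 = 7 ∨ n % 16 = 9 ∨ n % 16 = 11 then 1 else 0

lemma vd_phn (hL : Law) {n : ℕ} (hn : Odd n) : (VD n).card % 2 = phn n := by
  have h := vd_parity hL (Nat.odd_iff.1 hn)
  unfold phn
  rw [Nat.odd_iff] at h
  split_ifs with h1
  · exact h.2 h1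
  · have : ¬ (VD n).card % 2 = 1 := fun h2 => h1 (h.1 h2)
    omega

lemma phn_pair {a r₁ r₂ : ℕ} (ha : Odd a) (h₁ : r₁ % 8 = 3 ∨ r₁ % 8 = 5)
    (h₂ : r₂ % 8 = 3 ∨ r₂ % 8 = 5) :
    (phn a + phn (a * r₁) + phn (a * r₂) + phn (a * (r₁ * r₂))) % 2 = 1 := by
  have e1 : (a * r₁) % 16 = ((a % 16) * (r₁ % 16)) % 16 := Nat.mul_mod _ _ _
  have e2 : (a * r₂) % 16 = ((a % 16) * (r₂ % 16)) % 16 := Nat.mul_mod _ _ _
  have e3 : (a * (r₁ * r₂)) % 16 = ((a % 16) * ((r₁ % 16) * (r₂ % 16) % 16)) % 16 := by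
    rw [Nat.mul_mod, Nat.mul_mod r₁ r₂]
  unfold phn
  rw [e1, e2, e3]
  have ha' : a % 2 = 1 := Nat.odd_iff.1 ha
  have m0 : a % 16 = 1 ∨ a % 16 = 3 ∨ a % 16 = 5 ∨ a % 16 = 7 ∨ a % 16 = 9 ∨ a % 16 = 11 ∨
    a % 16 = 13 ∨ a % 16 = 15 := by omega
  have m1 : r₁ % 16 = 3 ∨ r₁ % 16 = 5 ∨ r₁ % 16 = 11 ∨ r₁ % 16 = 13 := by omega
  have m2 : r₂ % 16 = 3 ∨ r₂ % 16 = 5 ∨ r₂ % 16 = 11 ∨ r₂ % 16 = 13 := by omega
  rcases m0 with c | c | c | c | c | c | c | c <;> rcases m1 with a | a | a | a <;>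
    rcases m2 with b | b | b | b <;> rw [a, b, c] <;> norm_num

lemma prod_odd {T : Finset ℕ} (hT : ∀ r ∈ T, Inert r) : Odd (∏ r ∈ T, r) := by
  refine Finset.prod_induction _ Odd (fun a b => Odd.mul) odd_one ?_
  intro q hq
  exact (hT q hq).1.odd_of_ne_two (hT q hq).ne_two

lemma sum_phn {R : Finset ℕ} (hR : ∀ r ∈ R, Inert r) (h2 : 2 ≤ R.card) {N : ℕ} (hN : Odd N) :
    (∑ T ∈ R.powerset, phn (N * ∏ r ∈ T, r)) % 2 = if R.card = 2 then 1 else 0 := by
  classical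
  obtain ⟨r₁, r₂, R', hr, h12, rfl⟩ : ∃ r₁ r₂ R', r₁ ∉ insert r₂ R' ∧ r₂ ∉ R' ∧
      R = insert r₁ (insert r₂ R') := by
    obtain ⟨r₁, h1⟩ := Finset.card_pos.1 (by omega : 0 < R.card)
    have hc : (R.erase r₁).card = R.card - 1 := Finset.card_erase_of_mem h1
    obtain ⟨r₂, h2'⟩ := Finset.card_pos.1 (by omega : 0 < (R.erase r₁).card)
    refine ⟨r₁, r₂, (R.erase r₁).erase r₂, ?_, ?_, ?_⟩
    · rw [Finset.insert_erase h2']
      exact Finset.notMem_erase _ _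
    · exact Finset.notMem_erase _ _
    · rw [Finset.insert_erase h2', Finset.insert_erase h1]
  have hcard : (insert r₁ (insert r₂ R')).card = R'.card + 2 := by
    rw [Finset.card_insert_of_notMem hr, Finset.card_insert_of_notMem h12]
  rw [hcard]
  rw [Finset.sum_powerset_insert hr, Finset.sum_powerset_insert h12,
    Finset.sum_powerset_insert h12, ← Finset.sum_add_distrib, ← Finset.sum_add_distrib,
    ← Finset.sum_add_distrib]
  have hi1 := hR r₁ (Finset.mem_insert_self _ _)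
  have hi2 := hR r₂ (Finset.mem_insert_of_mem (Finset.mem_insert_self _ _))
  have hkey : ∀ T ∈ R'.powerset,
      (phn (N * ∏ r ∈ T, r) + phn (N * ∏ r ∈ insert r₂ T, r) + (phn (N * ∏ r ∈ insert r₁ T, r) +
        phn (N * ∏ r ∈ insert r₁ (insert r₂ T), r))) % 2 = 1 := by
    intro T hT
    rw [Finset.mem_powerset] at hT
    have h2T : r₂ ∉ T := fun h => h12 (hT h)
    have h1T : r₁ ∉ insert r₂ T := fun h => hr (by
      rw [Finset.mem_insert] at h ⊢
      exact h.imp id (fun h => hT h))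
    have h1T' : r₁ ∉ T := fun h => h1T (Finset.mem_insert_of_mem h)
    rw [Finset.prod_insert h1T, Finset.prod_insert h2T, Finset.prod_insert h1T']
    have hodd : Odd (N * ∏ r ∈ T, r) := hN.mul (prod_odd (fun r hr' =>
      hR r (Finset.mem_insert_of_mem (Finset.mem_insert_of_mem (hT hr')))))
    have h3 := phn_pair hodd hi1.2 hi2.2
    have e1 : N * (r₂ * ∏ r ∈ T, r) = (N * ∏ r ∈ T, r) * r₂ := by ring
    have e2 : N * (r₁ * ∏ r ∈ T, r) = (N * ∏ r ∈ T, r) * r₁ := by ring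
    have e3 : N * (r₁ * (r₂ * ∏ r ∈ T, r)) = (N * ∏ r ∈ T, r) * (r₁ * r₂) := by ring
    rw [e1, e2, e3]
    omega
  have hsum : ∀ (s : Finset (Finset ℕ)) (f : Finset ℕ → ℕ), (∀ T ∈ s, f T % 2 = 1) →
      (∑ T ∈ s, f T) % 2 = s.card % 2 := by
    intro s f h
    rw [Finset.sum_nat_mod, Finset.sum_congr rfl h, Finset.sum_const, smul_eq_mul, mul_one]
  rw [hsum _ _ hkey, Finset.card_powerset]
  rcases Nat.eq_zero_or_pos R'.card with h0 | h0
  · rw [h0]; norm_num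
  · rw [if_neg (by omega)]
    obtain ⟨t, ht⟩ : ∃ t, R'.card = t + 1 := ⟨R'.card - 1, by omega⟩
    rw [ht, pow_succ]
    omega

lemma val_base {N : ℕ} (hN : N ≠ 0) {T : Finset ℕ} (hT : ∀ r ∈ T, Inert r) {p : ℕ}
    (hp : p.Prime) : padicValNat p (N * ∏ r ∈ T, r) = padicValNat p N + if p ∈ T then 1 else 0 := by
  have := Fact.mk hp
  have h0 : ∏ q ∈ T, q ≠ 0 := Finset.prod_ne_zero_iff.2 (fun q hq => (hT q hq).1.ne_zero)
  rw [padicValNat.mul hN h0, val_prod_primes _ (fun r hr => (hT r hr).1) hp]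

/-- which subsets give indices divisible by the order -/
lemma dvd_base_iff {N : ℕ} (hN : N ≠ 0) {R : Finset ℕ} (hR : ∀ r ∈ R, Inert r) {o : ℕ}
    (ho : o ∣ N * ∏ r ∈ R, r) {T : Finset ℕ} (hT : T ⊆ R) :
    o ∣ N * ∏ r ∈ T, r ↔
      R.filter (fun r => padicValNat r o = padicValNat r (N * ∏ r ∈ R, r)) ⊆ T := by
  classical
  have hT' : ∀ r ∈ T, Inert r := fun r hr => hR r (hT hr)
  have hnR : N * ∏ r ∈ R, r ≠ 0 := mul_ne_zero hN (prod_odd hR).pos.ne'
  have hnT : N * ∏ r ∈ T, r ≠ 0 := mul_ne_zero hN (prod_odd hT').pos.ne'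
  have ho0 : o ≠ 0 := ne_zero_of_dvd_ne_zero hnR ho
  have hle : ∀ p : ℕ, p.Prime → padicValNat p o ≤ padicValNat p (N * ∏ r ∈ R, r) := by
    intro p hp
    have := Fact.mk hp
    exact (padicValNat_dvd_iff_le hnR).1 (pow_padicValNat_dvd.trans ho)
  constructor
  · intro h r hr
    rw [Finset.mem_filter] at hr
    have hp := (hR r hr.1).1
    have := Fact.mk hp
    have h1 : padicValNat r o ≤ padicValNat r (N * ∏ r ∈ T, r) :=
      (padicValNat_dvd_iff_le hnT).1 (pow_padicValNat_dvd.trans h)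
    rw [hr.2, val_base hN hR hp, val_base hN hT' hp, if_pos hr.1] at h1
    by_contra hcon
    rw [if_neg hcon] at h1
    omega
  · intro h
    rw [← Nat.factorization_prime_le_iff_dvd ho0 hnT]
    intro p hp
    rw [Nat.factorization_def _ hp, Nat.factorization_def _ hp]
    have h1 := hle p hp
    rw [val_base hN hR hp] at h1
    rw [val_base hN hT' hp]
    by_cases hpR : p ∈ R
    · by_cases hpT : p ∈ T
      · rw [if_pos hpT]; rw [if_pos hpR] at h1; exact h1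
      · rw [if_neg hpT]
        rw [if_pos hpR] at h1
        have h2 : padicValNat p o ≠ padicValNat p (N * ∏ r ∈ R, r) := fun h3 =>
          hpT (h (Finset.mem_filter.2 ⟨hpR, h3⟩))
        rw [val_base hN hR hp, if_pos hpR] at h2
        omega
    · rw [if_neg hpR] at h1
      rw [if_neg (fun h3 => hpR (hT h3))]
      exact h1

end Vale.Agent.P027.Q
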