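import Vale.Agent.P027.H539.Cnt

/-! Counting lemma for the visible primes: the double count. -/

set_option linter.all false

namespace Vale.Agent.P027.Q

open Vale.Agent.P027

/-- the primes of `R` at which the order is full -/
noncomputable def BB (R : Finset ℕ) (n Q : ℕ) : Finset ℕ :=
  R.filter (fun r => padicValNat r (od Q) = padicValNat r n)

lemma BB_sub (R : Finset ℕ) (n Q : ℕ) : BB R n Q ⊆ R := Finset.filter_subset _ _

lemma mem_vd_base {N : ℕ} (hN : N ≠ 0) {R : Finset ℕ} (hR : ∀ r ∈ R, Inert r) {T : Finset ℕ}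
    (hT : T ⊆ R) {Q : ℕ} (hQ : Inert Q) (hdv : Dv Q ((N * ∏ r ∈ R, r : ℕ) : ℤ)) :
    Q ∈ VD (N * ∏ r ∈ T, r) ↔
      BB R (N * ∏ r ∈ R, r) Q ⊆ T ∧ Odd (wt Q (N * ∏ r ∈ T, r)) := by
  have hT' : ∀ r ∈ T, Inert r := fun r hr => hR r (hT hr)
  have hnR : N * ∏ r ∈ R, r ≠ 0 := mul_ne_zero hN (prod_odd hR).pos.ne'
  have hnT : N * ∏ r ∈ T, r ≠ 0 := mul_ne_zero hN (prod_odd hT').pos.ne'
  have ho := ord_od hQ.1 hnR hdv
  have hod := od_dvd hQ.1 hnR hdv
  rw [mem_VD hnT, ← dv_xx hnT, ho.2]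
  have e : ((od Q : ℤ) ∣ ((N * ∏ r ∈ T, r : ℕ) : ℤ)) ↔ od Q ∣ N * ∏ r ∈ T, r := by
    exact_mod_cast Iff.rfl
  rw [e, dvd_base_iff hN hR hod hT]
  unfold BB
  constructor
  · rintro ⟨-, h1, h2⟩; exact ⟨h1, h2⟩
  · rintro ⟨h1, h2⟩; exact ⟨hQ, h1, h2⟩

lemma wt_base {N : ℕ} (hN : N ≠ 0) {R : Finset ℕ} (hR : ∀ r ∈ R, Inert r) {T : Finset ℕ}
    (hT : T ⊆ R) {Q : ℕ} (hQ : Inert Q) (hdv : Dv Q ((N * ∏ r ∈ R, r : ℕ) : ℤ))
    (hB : BB R (N * ∏ r ∈ R, r) Q ⊆ T) :
    wt Q (N * ∏ r ∈ R, r) = wt Q (N * ∏ r ∈ T, r) + if Q ∈ R \ T then 1 else 0 := by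
  classical
  have hT' : ∀ r ∈ T, Inert r := fun r hr => hR r (hT hr)
  have hnR : N * ∏ r ∈ R, r ≠ 0 := mul_ne_zero hN (prod_odd hR).pos.ne'
  have hnT : N * ∏ r ∈ T, r ≠ 0 := mul_ne_zero hN (prod_odd hT').pos.ne'
  have ho := ord_od hQ.1 hnR hdv
  have hod := od_dvd hQ.1 hnR hdv
  have hodT : od Q ∣ N * ∏ r ∈ T, r := (dvd_base_iff hN hR hod hT).2 hB
  have hdT : Dv Q ((N * ∏ r ∈ T, r : ℕ) : ℤ) := dv_of_od ho hodT
  have hS : ∀ r ∈ R \ T, r.Prime := fun r hr => (hR r (Finset.mem_sdiff.1 hr).1).1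
  have hk : ∏ r ∈ R \ T, r ≠ 0 := Finset.prod_ne_zero_iff.2 (fun q hq => (hS q hq).ne_zero)
  have e : N * ∏ r ∈ R, r = (N * ∏ r ∈ T, r) * ∏ r ∈ R \ T, r := by
    rw [mul_assoc]
    congr 1
    rw [mul_comm]
    exact (Finset.prod_sdiff hT).symm
  have h1 := wt_mul_dv hQ.1 hnT hk hdT
  rw [← e, val_prod_primes _ hS hQ.1] at h1
  exact h1

lemma card_Icc_mod {B R : Finset ℕ} (h : B ⊆ R) :
    (Finset.Icc B R).card % 2 = if B = R then 1 else 0 := by
  rw [Finset.card_Icc_finset h]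
  split_ifs with h1
  · rw [h1, Nat.sub_self]
    norm_num
  · have h2 : B.card < R.card := Finset.card_lt_card (lt_of_le_of_ne h h1)
    obtain ⟨t, ht⟩ : ∃ t, R.card - B.card = t + 1 := ⟨R.card - B.card - 1, by omega⟩
    rw [ht, pow_succ]
    omega

lemma count_one {N : ℕ} (hN : N ≠ 0) {R : Finset ℕ} (hR : ∀ r ∈ R, Inert r) {Q : ℕ}
    (hQ : Inert Q) (hdv : Dv Q ((N * ∏ r ∈ R, r : ℕ) : ℤ)) :
    (R.powerset.filter (fun T => Q ∈ VD (N * ∏ r ∈ T, r))).card % 2 =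
      ((if Odd (wt Q (N * ∏ r ∈ R, r)) ∧ BB R (N * ∏ r ∈ R, r) Q = R then 1 else 0) +
      (if Q ∈ R ∧ BB R (N * ∏ r ∈ R, r) Q = R.erase Q then 1 else 0)) % 2 := by
  classical
  set n := N * ∏ r ∈ R, r with hn
  set B := BB R n Q with hB
  have hBR : B ⊆ R := BB_sub _ _ _
  by_cases hc : Q ∈ R ∧ Q ∉ B
  · obtain ⟨hQR, hQB⟩ := hc
    have hBe : B ⊆ R.erase Q := fun r hr => Finset.mem_erase.2 ⟨fun h => hQB (h ▸ hr), hBR hr⟩
    have hBne : B ≠ R := fun h => hQB (h ▸ hQR)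
    rw [if_neg (fun h => hBne h.2)]
    by_cases hw : Odd (wt Q n)
    · have hset : R.powerset.filter (fun T => Q ∈ VD (N * ∏ r ∈ T, r)) =
          Finset.Icc (insert Q B) R := by
        ext T
        rw [Finset.mem_filter, Finset.mem_powerset, Finset.mem_Icc]
        constructor
        · rintro ⟨h1, h2⟩
          obtain ⟨h3, h4⟩ := (mem_vd_base hN hR h1 hQ hdv).1 h2
          have h5 := wt_base hN hR h1 hQ hdv h3
          refine ⟨?_, h1⟩
          have hQT : Q ∈ T := by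
            by_contra hQT
            rw [if_pos (Finset.mem_sdiff.2 ⟨hQR, hQT⟩), ← hn] at h5
            rw [h5] at hw
            rw [Nat.odd_iff] at hw h4
            omega
          exact Finset.insert_subset hQT h3
        · rintro ⟨h1, h2⟩
          have h3 : B ⊆ T := fun r hr => h1 (Finset.mem_insert_of_mem hr)
          have hQT : Q ∈ T := h1 (Finset.mem_insert_self _ _)
          have h5 := wt_base hN hR h2 hQ hdv h3
          rw [if_neg (fun h => (Finset.mem_sdiff.1 h).2 hQT), add_zero, ← hn] at h5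
          exact ⟨h2, (mem_vd_base hN hR h2 hQ hdv).2 ⟨h3, by rw [← h5]; exact hw⟩⟩
      rw [hset, card_Icc_mod (Finset.insert_subset hQR hBR), zero_add]
      by_cases h1 : B = R.erase Q
      · have e1 : insert Q B = R := by rw [h1, Finset.insert_erase hQR]
        have e2 : Q ∈ R ∧ B = R.erase Q := ⟨hQR, h1⟩
        rw [if_pos e1, if_pos e2]
      · have e1 : ¬ insert Q B = R := by
          intro h2
          apply h1
          rw [← h2, Finset.erase_insert hQB]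
        have e2 : ¬ (Q ∈ R ∧ B = R.erase Q) := fun h => h1 h.2
        rw [if_neg e1, if_neg e2]
    · have hset : R.powerset.filter (fun T => Q ∈ VD (N * ∏ r ∈ T, r)) =
          Finset.Icc B (R.erase Q) := by
        ext T
        rw [Finset.mem_filter, Finset.mem_powerset, Finset.mem_Icc]
        constructor
        · rintro ⟨h1, h2⟩
          obtain ⟨h3, h4⟩ := (mem_vd_base hN hR h1 hQ hdv).1 h2
          have h5 := wt_base hN hR h1 hQ hdv h3
          refine ⟨h3, ?_⟩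
          have hQT : Q ∉ T := by
            intro hQT
            rw [if_neg (fun h => (Finset.mem_sdiff.1 h).2 hQT), add_zero, ← hn] at h5
            rw [h5] at hw
            exact hw h4
          exact fun r hr => Finset.mem_erase.2 ⟨fun h => hQT (h ▸ hr), h1 hr⟩
        · rintro ⟨h1, h2⟩
          have hTR : T ⊆ R := fun r hr => Finset.mem_of_mem_erase (h2 hr)
          have hQT : Q ∉ T := fun h => Finset.notMem_erase _ _ (h2 h)
          have h5 := wt_base hN hR hTR hQ hdv h1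
          rw [if_pos (Finset.mem_sdiff.2 ⟨hQR, hQT⟩), ← hn] at h5
          refine ⟨hTR, (mem_vd_base hN hR hTR hQ hdv).2 ⟨h1, ?_⟩⟩
          rw [h5, Nat.not_odd_iff_even, Nat.even_iff] at hw
          rw [Nat.odd_iff]
          omega
      rw [hset, card_Icc_mod hBe, zero_add]
      by_cases h1 : B = R.erase Q
      · have e2 : Q ∈ R ∧ B = R.erase Q := ⟨hQR, h1⟩
        rw [if_pos e2, if_pos h1]
      · have e2 : ¬ (Q ∈ R ∧ B = R.erase Q) := fun h => h1 h.2
        rw [if_neg e2, if_neg h1]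
  · have hY : ¬ (Q ∈ R ∧ B = R.erase Q) := by
      rintro ⟨h1, h2⟩
      apply hc
      refine ⟨h1, ?_⟩
      rw [h2]
      exact Finset.notMem_erase _ _
    rw [if_neg hY, add_zero]
    have hnot : ∀ T, B ⊆ T → Q ∉ R \ T := by
      intro T h1 h2
      rw [Finset.mem_sdiff] at h2
      exact hc ⟨h2.1, fun h => h2.2 (h1 h)⟩
    by_cases hw : Odd (wt Q n)
    · have hset : R.powerset.filter (fun T => Q ∈ VD (N * ∏ r ∈ T, r)) = Finset.Icc B R := by
        ext T
        rw [Finset.mem_filter, Finset.mem_powerset, Finset.mem_Icc]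
        constructor
        · rintro ⟨h1, h2⟩
          exact ⟨((mem_vd_base hN hR h1 hQ hdv).1 h2).1, h1⟩
        · rintro ⟨h1, h2⟩
          have h5 := wt_base hN hR h2 hQ hdv h1
          rw [if_neg (hnot T h1), add_zero, ← hn] at h5
          exact ⟨h2, (mem_vd_base hN hR h2 hQ hdv).2 ⟨h1, by rw [← h5]; exact hw⟩⟩
      rw [hset, card_Icc_mod hBR]
      by_cases h1 : B = R
      · rw [if_pos h1, if_pos ⟨hw, h1⟩]
      · rw [if_neg h1, if_neg (fun h => h1 h.2)]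
    · have hset : R.powerset.filter (fun T => Q ∈ VD (N * ∏ r ∈ T, r)) = ∅ := by
        rw [Finset.filter_eq_empty_iff]
        intro T hT h2
        rw [Finset.mem_powerset] at hT
        obtain ⟨h3, h4⟩ := (mem_vd_base hN hR hT hQ hdv).1 h2
        have h5 := wt_base hN hR hT hQ hdv h3
        rw [if_neg (hnot T h3), add_zero, ← hn] at h5
        rw [h5] at hw
        exact hw h4
      rw [hset, if_neg (fun h => hw h.1)]
      simp

/-- the visible primes of full order -/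
noncomputable def XX (R : Finset ℕ) (n : ℕ) : Finset ℕ := (VD n).filter (fun Q => BB R n Q = R)

open Classical in
/-- the primes of `R` with full order except at themselves -/
noncomputable def YY (R : Finset ℕ) (n : ℕ) : Finset ℕ :=
  R.filter (fun Q => Dv Q (n : ℤ) ∧ BB R n Q = R.erase Q)

theorem counting {N : ℕ} (hN : N ≠ 0) {R : Finset ℕ} (hR : ∀ r ∈ R, Inert r) :
    (∑ T ∈ R.powerset, (VD (N * ∏ r ∈ T, r)).card) % 2 =
      ((XX R (N * ∏ r ∈ R, r)).card + (YY R (N * ∏ r ∈ R, r)).card) % 2 := by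
  classical
  set n := N * ∏ r ∈ R, r with hn
  have hnR : n ≠ 0 := mul_ne_zero hN (prod_odd hR).pos.ne'
  set U := (xx n).den.primeFactors.filter (fun q => q % 8 = 3 ∨ q % 8 = 5) with hU
  have memU : ∀ Q, Q ∈ U ↔ Inert Q ∧ Dv Q (n : ℤ) := by
    intro Q
    rw [hU, Finset.mem_filter, Nat.mem_primeFactors, dv_xx hnR]
    constructor
    · rintro ⟨⟨h1, h2, -⟩, h3⟩
      exact ⟨⟨h1, h3⟩, (val_neg_iff h1 (xx_ne_zero hnR)).2 h2⟩
    · rintro ⟨⟨h1, h2⟩, h3⟩
      exact ⟨⟨h1, (val_neg_iff h1 (xx_ne_zero hnR)).1 h3, (xx n).den_ne_zero⟩, h2⟩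
  have hVD : ∀ T ∈ R.powerset, (VD (N * ∏ r ∈ T, r)).card =
      ∑ Q ∈ U, if Q ∈ VD (N * ∏ r ∈ T, r) then 1 else 0 := by
    intro T hT
    rw [Finset.mem_powerset] at hT
    have hT' : ∀ r ∈ T, Inert r := fun r hr => hR r (hT hr)
    have hnT : N * ∏ r ∈ T, r ≠ 0 := mul_ne_zero hN (prod_odd hT').pos.ne'
    rw [← Finset.card_filter]
    congr 1
    ext Q
    rw [Finset.mem_filter]
    constructor
    · intro h
      refine ⟨(memU Q).2 ⟨((mem_VD hnT).1 h).1, ?_⟩, h⟩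
      obtain ⟨M, hM, hMd⟩ := vd_ord hnT h
      refine dv_of_od hM (hMd.trans ?_)
      rw [hn, ← Finset.prod_sdiff hT]
      exact ⟨∏ r ∈ R \ T, r, by ring⟩
    · exact fun h => h.2
  rw [Finset.sum_congr rfl hVD, Finset.sum_comm]
  have hX : (XX R n).card = ∑ Q ∈ U, if Odd (wt Q n) ∧ BB R n Q = R then 1 else 0 := by
    rw [← Finset.card_filter]
    congr 1
    ext Q
    unfold XX
    rw [Finset.mem_filter, Finset.mem_filter, mem_VD hnR, memU, dv_xx hnR]
    tauto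
  have hY : (YY R n).card = ∑ Q ∈ U, if Q ∈ R ∧ BB R n Q = R.erase Q then 1 else 0 := by
    rw [← Finset.card_filter]
    congr 1
    ext Q
    unfold YY
    rw [Finset.mem_filter, Finset.mem_filter, memU]
    constructor
    · rintro ⟨h1, h2, h3⟩; exact ⟨⟨hR Q h1, h2⟩, h1, h3⟩
    · rintro ⟨⟨h1, h2⟩, h3, h4⟩; exact ⟨h3, h2, h4⟩
  rw [hX, hY, ← Finset.sum_add_distrib, Finset.sum_nat_mod, Finset.sum_nat_mod U 2
    (fun Q => (if Odd (wt Q n) ∧ BB R n Q = R then 1 else 0) +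
      (if Q ∈ R ∧ BB R n Q = R.erase Q then 1 else 0))]
  congr 1
  refine Finset.sum_congr rfl (fun Q hQ => ?_)
  obtain ⟨h1, h2⟩ := (memU Q).1 hQ
  rw [← count_one hN hR h1 h2, Finset.card_filter]

/-- the counting lemma -/
theorem counting' (hL : Law) {N : ℕ} (hN : Odd N) {R : Finset ℕ} (hR : ∀ r ∈ R, Inert r)
    (h2 : 2 ≤ R.card) :
    ((XX R (N * ∏ r ∈ R, r)).card + (YY R (N * ∏ r ∈ R, r)).card) % 2 =
      if R.card = 2 then 1 else 0 := by
  rw [← counting hN.pos.ne' hR, ← sum_phn hR h2 hN, Finset.sum_nat_mod, Finset.sum_nat_mod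
    R.powerset 2 (fun T => phn (N * ∏ r ∈ T, r))]
  congr 1
  refine Finset.sum_congr rfl (fun T hT => ?_)
  rw [Finset.mem_powerset] at hT
  have hodd : Odd (N * ∏ r ∈ T, r) := hN.mul (prod_odd (fun r hr => hR r (hT hr)))
  rw [vd_phn hL hodd]
  unfold phn
  split_ifs <;> rfl

end Vale.Agent.P027.Q
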