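import Vale.Agent.P027.H539.And
import Vale.Agent.P027.N.Defs

/-! Module N2: the parity law and the AND-lemma in the form of the interface. -/

set_option linter.all false

namespace Vale.Agent.P027.N

open Vale.Agent.P027 Vale.Agent.P027.Q

lemma xc_natAbs (m : ℤ) : xc (m • P0) = xx m.natAbs := by
  unfold xx
  rcases Int.natAbs_eq m with h | h
  · conv_lhs => rw [h]
  · conv_lhs => rw [h, neg_zsmul, xc_neg]

lemma dv_natAbs {q : ℕ} {m : ℤ} : Dv q m ↔ Dv q (m.natAbs : ℤ) := by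
  unfold Dv
  rw [xc_natAbs, xc_natAbs, Int.natAbs_natCast]
  simp

lemma cast_dvd_natAbs {n : ℕ} {m : ℤ} : (n : ℤ) ∣ m ↔ n ∣ m.natAbs := Int.natCast_dvd

lemma even_xx {q n : ℕ} (hL : Law) (hn : Odd n) (hq : q.Prime) : Even (padicValRat q (xx n)) := by
  obtain ⟨s, hs, hx⟩ := law_s hL (Nat.odd_iff.1 hn)
  rw [(wt_eq hq hs hx).1]
  exact even_two_mul _

lemma odd_hv {q : ℕ} {m : ℤ} (hL : Law) (hm : Odd m) (hq : q.Prime) :
    Odd (hv q m) ↔ Odd (wt q m.natAbs) := by
  have hn : Odd m.natAbs := Int.natAbs_odd.2 hm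
  obtain ⟨k, hk⟩ := even_xx hL hn hq
  unfold hv wt
  rw [xc_natAbs, hk, Int.odd_iff, Nat.odd_iff]
  omega

theorem stParity (hL : Law) : StParity := by
  classical
  intro n F hn hF hFn
  have hn' : Odd n.natAbs := Int.natAbs_odd.2 hn
  have hn0 : n.natAbs ≠ 0 := hn'.pos.ne'
  have hset : VD n.natAbs = (F.filter (fun q => padicValRat q (xc (n • P0)) < 0)).filter
      (fun q => Odd (hv q n)) := by
    ext q
    rw [mem_VD hn0, Finset.mem_filter, Finset.mem_filter, xc_natAbs]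
    constructor
    · rintro ⟨h1, h2, h3⟩
      have h4 : Dv q n := by
        rw [dv_natAbs]
        exact (dv_xx hn0).2 h2
      exact ⟨⟨hFn q h1 h4, h2⟩, (odd_hv hL hn h1.1).2 h3⟩
    · rintro ⟨⟨h1, h2⟩, h3⟩
      exact ⟨hF q h1, h2, (odd_hv hL hn (hF q h1).1).1 h3⟩
  have h1 := vd_parity hL (Nat.odd_iff.1 hn')
  have h2 : Odd (∑ q ∈ F.filter (fun q => padicValRat q (xc (n • P0)) < 0), hv q n) ↔
      Odd (VD n.natAbs).card := by
    rw [hset]
    generalize F.filter (fun q => padicValRat q (xc (n • P0)) < 0) = G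
    induction G using Finset.induction_on with
    | empty => simp
    | insert a G ha ih =>
      rw [Finset.sum_insert ha, Finset.filter_insert]
      by_cases h : Odd (hv a n)
      · rw [if_pos h, Finset.card_insert_of_notMem (by
          rw [Finset.mem_filter]; exact fun h => ha h.1)]
        rw [Int.odd_iff] at h ih ⊢
        rw [Nat.odd_iff] at ih ⊢
        rw [Int.odd_iff] at *
        omega
      · rw [if_neg h]
        rw [Int.odd_iff] at h ih ⊢
        rw [Nat.odd_iff] at ih ⊢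
        omega
  rw [h2, h1]
  rcases Int.natAbs_eq n with h | h <;> omega

theorem stAnd (hL : Law) : StAnd := by
  intro I _ m top q q' i j hodd hne hq hq' hi hj hd
  obtain ⟨hin, hq3, n, hn, hqn, r, r', hr, hr', hrr, hrn, hr'n⟩ := hq
  obtain ⟨hin', hq3', n', hn', hqn', t, t', ht, ht', htt, htn, ht'n⟩ := hq'
  have e := od_eq hn
  have e' := od_eq hn'
  have hpow : ∀ (p e N a b : ℕ), p.Prime → a.Prime → b.Prime → a ≠ b → a ∣ N → b ∣ N →
      N ≠ p ^ e := by
    rintro p e N a b hp ha hb hab haN hbN rfl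
    have h1 := (Nat.prime_dvd_prime_iff_eq ha hp).1 (ha.dvd_of_dvd_pow haN)
    have h2 := (Nat.prime_dvd_prime_iff_eq hb hp).1 (hb.dvd_of_dvd_pow hbN)
    exact hab (h1.trans h2.symm)
  have htop : (m top).natAbs ≠ 0 := (Int.natAbs_odd.2 (hodd top)).pos.ne'
  obtain ⟨Q, U, o, h1, h2, h3, h4, h5, h6, h7, h8⟩ := and_core hL hin hin' hne hi hj
    (by rw [e]; exact hqn) (by rw [e']; exact hqn')
    (by rw [e]; exact hpow q' j n r r' hin'.1 hr hr' hrr hrn hr'n)
    (by rw [e']; exact hpow q i n' t t' hin.1 ht ht' htt htn ht'n)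
    (fun k => (m k).natAbs) top htop (cast_dvd_natAbs.1 hd)
  have hqo : q ∣ o := ((dvd_pow_self q (by omega)).mul_right _).trans h4
  have hq'o : q' ∣ o := ((dvd_pow_self q' (by omega)).mul_left _).trans h4
  refine ⟨Q, ⟨h1, ?_, o, h2, h3, q, q', hin.1, hin'.1, hne, hqo, hq'o⟩, ⟨U, ?_, ?_, ?_⟩, ?_⟩
  · rintro rfl
    have hU := Int.natAbs_odd.2 (hodd U)
    exact not_dv_three (Nat.odd_iff.1 hU) ((dv_xx hU.pos.ne').1 h6)
  · rw [cast_dvd_natAbs]; exact h5
  · rw [dv_natAbs]; exact h6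
  · exact (odd_hv hL (hodd U) h1.1).2 h7
  · intro k
    rw [dv_natAbs, cast_dvd_natAbs]
    exact h8 k

end Vale.Agent.P027.N
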